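import Mathlib

/-! # P087: microstates and non-microstates free entropy (definitions) -/

namespace Vale.Agent.P087

open MeasureTheory Filter
open scoped ENNReal

/-- the monomial `X_{i₁} ⋯ X_{i_p}` -/
def word {ι A : Type*} [Monoid A] (X : ι → A) (w : List ι) : A := (w.map X).prod

/-- `∑_{l : i_l = j} F (i₁ … i_{l-1}) (i_{l+1} … i_p)`: the free difference quotient `∂_j` of the
monomial `w = i₁ … i_p`, paired with a function `F` of the two tensor factors. -/
def dsum {ι B : Type*} [DecidableEq ι] [AddCommMonoid B] (j : ι) (w : List ι)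
    (F : List ι → List ι → B) : B :=
  ∑ l ∈ Finset.range w.length, if w[l]? = some j then F (w.take l) (w.drop (l + 1)) else 0

/-- the double commutant of `S ∪ S*` -/
def wStar {A : Type*} [Mul A] [Star A] (S : Set A) : Set A := (S ∪ star '' S).centralizer.centralizer

/-- free independence of a family of subalgebras with respect to `τ` -/
def IsFree {κ A : Type*} [Monoid A] (τ : A → ℂ) (𝒜 : κ → Set A) : Prop :=
  ∀ l : List (κ × A), l ≠ [] → (∀ p ∈ l, p.2 ∈ 𝒜 p.1 ∧ τ p.2 = 0) →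
    l.IsChain (fun p q => p.1 ≠ q.1) → τ (l.map Prod.snd).prod = 0

/-- a standard semicircular element: self-adjoint, with the moments of the semicircle law of
variance one -/
def IsSemicircular {A : Type*} [Monoid A] [Star A] (τ : A → ℂ) (s : A) : Prop :=
  IsSelfAdjoint s ∧ ∀ k : ℕ, τ (s ^ (2 * k)) = catalan k ∧ τ (s ^ (2 * k + 1)) = 0

/-- `S` is a free semicircular family, free from `X` -/
def IsFreeSemicircular {ι A : Type*} [Monoid A] [Star A] (τ : A → ℂ) (X S : ι → A) : Prop :=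
  (∀ j, IsSemicircular τ (S j)) ∧
    IsFree τ fun o : Option ι => o.elim (wStar (Set.range X)) fun j => wStar {S j}

section Microstates

variable {ι : Type} [Fintype ι]

/-- Euclidean coordinates on tuples of self-adjoint matrices: a linear bijection from real arrays
onto `(M_k^{sa})^ι` with `∑_j Tr (A_j²) = ∑ x²`. -/
noncomputable def herm {k : ℕ} (x : ι × Fin k × Fin k → ℝ) (j : ι) : Matrix (Fin k) (Fin k) ℂ :=
  Matrix.of fun a b => ((1 + Complex.I) * x (j, a, b) + (1 - Complex.I) * x (j, b, a)) / 2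

/-- Lebesgue measure on `(M_k^{sa})^ι` -/
noncomputable def vol {k : ℕ} (Γ : Set (ι → Matrix (Fin k) (Fin k) ℂ)) : ℝ≥0∞ :=
  volume {x : ι × Fin k × Fin k → ℝ | herm x ∈ Γ}

/-- operator norm of a matrix -/
noncomputable def opNorm {k : ℕ} (A : Matrix (Fin k) (Fin k) ℂ) : ℝ :=
  ‖Matrix.toEuclideanCLM (n := Fin k) (𝕜 := ℂ) A‖

/-- the microstate set `Γ_R(X; m, k, ε)` of a tuple with moments `μ w = τ (X_{i₁} ⋯ X_{i_p})` -/
def Gam (μ : List ι → ℂ) (R : ℝ) (m k : ℕ) (ε : ℝ) : Set (ι → Matrix (Fin k) (Fin k) ℂ) :=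
  {A | (∀ j, (A j).IsHermitian ∧ opNorm (A j) ≤ R) ∧
    ∀ w : List ι, 1 ≤ w.length → w.length ≤ m → ‖(word A w).trace / k - μ w‖ < ε}

/-- `k⁻² log vol Γ_R(X; m, k, ε) + (n / 2) log k` -/
noncomputable def ent (μ : List ι → ℂ) (R : ℝ) (m k : ℕ) (ε : ℝ) : EReal :=
  ((((k : ℝ) ^ 2)⁻¹ : ℝ) : EReal) * ENNReal.log (vol (Gam μ R m k ε)) +
    ((Fintype.card ι / 2 * Real.log k : ℝ) : EReal)

/-- `χ_R` -/
noncomputable def chiR (μ : List ι → ℂ) (R : ℝ) : EReal :=
  ⨅ (m : ℕ) (ε : ℝ) (_ : 0 < ε), limsup (fun k => ent μ R m k ε) atTop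

/-- microstates free entropy `χ` of a tuple with moments `μ` -/
noncomputable def chiMom (μ : List ι → ℂ) : EReal := ⨆ (R : ℝ) (_ : 0 < R), chiR μ R

end Microstates

variable {H : Type} [NormedAddCommGroup H] [InnerProductSpace ℂ H] [CompleteSpace H]
  {ι : Type} [Fintype ι] [DecidableEq ι]

/-- the vector state `τ(x) = ⟨Ω, x Ω⟩` -/
noncomputable def tau (Ω : H) (x : H →L[ℂ] H) : ℂ := inner ℂ Ω (x Ω)

/-- the vector state of `Ω` is a faithful tracial state on `M` -/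
def IsTraceVector (M : Set (H →L[ℂ] H)) (Ω : H) : Prop :=
  ‖Ω‖ = 1 ∧ (∀ x ∈ M, ∀ y ∈ M, tau Ω (x * y) = tau Ω (y * x)) ∧
    ∀ x ∈ M, tau Ω (star x * x) = 0 → x = 0

/-- microstates free entropy `χ(X)` -/
noncomputable def chi (Ω : H) (X : ι → H →L[ℂ] H) : EReal := chiMom fun w => tau Ω (word X w)

/-- `L²(W*(X), τ)`, realised as the closure of `W*(X) Ω` -/
def L2 (Ω : H) (X : ι → H →L[ℂ] H) : Set H :=
  closure ((fun x : H →L[ℂ] H => x Ω) '' wStar (Set.range X))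

/-- conjugate variables: `ξ_j ∈ L²(W*(X), τ)` and `τ(P(X) ξ_j) = (τ ⊗ τ)(∂_j P(X))` -/
def IsConj (Ω : H) (X : ι → H →L[ℂ] H) (ξ : ι → H) : Prop :=
  ∀ j, ξ j ∈ L2 Ω X ∧ ∀ w : List ι,
    inner ℂ Ω (word X w (ξ j)) = dsum j w fun g h => tau Ω (word X g) * tau Ω (word X h)

/-- free Fisher information `Φ*(X)` (`∞` if there are no conjugate variables) -/
noncomputable def fisher (Ω : H) (X : ι → H →L[ℂ] H) : ℝ≥0∞ :=
  ⨅ (ξ : ι → H) (_ : IsConj Ω X ξ), ENNReal.ofReal (∑ j, ‖ξ j‖ ^ 2)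

/-- `X + √t S` -/
noncomputable def flow (X S : ι → H →L[ℂ] H) (t : ℝ) (j : ι) : H →L[ℂ] H :=
  X j + ((√t : ℝ) : ℂ) • S j

/-- `∫₀^∞ (a - b) dt`, as the integral of the positive part minus the integral of the negative
part -/
noncomputable def intDiff (a b : ℝ → ℝ≥0∞) : EReal :=
  ((∫⁻ t in Set.Ioi (0 : ℝ), a t - b t : ℝ≥0∞) : EReal) -
    ((∫⁻ t in Set.Ioi (0 : ℝ), b t - a t : ℝ≥0∞) : EReal)

/-- non-microstates free entropy `χ*(X)`, computed with the semicircular family `S` -/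
noncomputable def chiStar (Ω : H) (X S : ι → H →L[ℂ] H) : EReal :=
  ((1 / 2 : ℝ) : EReal) *
      intDiff (fun t => ENNReal.ofReal (Fintype.card ι / (1 + t))) (fun t => fisher Ω (flow X S t)) +
    ((Fintype.card ι / 2 * Real.log (2 * Real.pi * Real.exp 1) : ℝ) : EReal)

end Vale.Agent.P087
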